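import Mathlib

/-!
Generic tools for finite point sets described by integer data:
integer Gram data, coordinates with square-root weights, and a bitset check
that a graph has no clique of a given size.
-/

open scoped RealInnerProductSpace

namespace Vale.Agent.Borsuk

/-- Integer dot product of two lists (truncated to the shorter one). -/
def dot : List ℤ → List ℤ → ℤ
  | a :: as, b :: bs => a * b + dot as bs
  | _, _ => 0

/-- Weighted integer dot product of two lists. -/
def dot3 : List ℤ → List ℤ → List ℤ → ℤ
  | a :: as, b :: bs, c :: cs => a * b * c + dot3 as bs cs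
  | _, _, _ => 0

/-- The lowest `n` digits of `x` in base `b`, least significant first. -/
def digits (b : ℕ) : ℕ → ℕ → List ℕ
  | 0, _ => []
  | n + 1, x => x % b :: digits b n (x / b)

/-- Decode `n` integers with offset `off` from a number in base `b`. -/
def row (b off n x : ℕ) : List ℤ := (digits b n x).map (fun t : ℕ => (t : ℤ) - (off : ℤ))

/-- Matrix times vector on integer lists. -/
def mulQ (Q : List (List ℤ)) (v : List ℤ) : List ℤ := Q.map (fun r => dot v r)

/-- Mixed integer and real dot product. -/
noncomputable def dotR : List ℤ → List ℝ → ℝ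
  | c :: cs, r :: rs => (c : ℝ) * r + dotR cs rs
  | _, _ => 0

lemma dotR_cast (u r : List ℤ) :
    dotR u (r.map (fun z : ℤ => (z : ℝ))) = ((dot u r : ℤ) : ℝ) := by
  induction u generalizing r with
  | nil => simp [dotR, dot]
  | cons a as ih =>
    cases r with
    | nil => simp [dotR, dot]
    | cons b bs => simp [dotR, dot, ih]

section Geometry

variable {d : ℕ}

/-- Integer combination of a list of vectors. -/
noncomputable def lin : List ℤ → List (EuclideanSpace ℝ (Fin d)) → EuclideanSpace ℝ (Fin d)
  | c :: cs, e :: es => (c : ℝ) • e + lin cs es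
  | _, _ => 0

lemma inner_lin_left (u : List ℤ) (es : List (EuclideanSpace ℝ (Fin d)))
    (w : EuclideanSpace ℝ (Fin d)) :
    ⟪lin u es, w⟫ = dotR u (es.map (fun e => ⟪e, w⟫)) := by
  induction u generalizing es with
  | nil => simp [lin, dotR]
  | cons a as ih =>
    cases es with
    | nil => simp [lin, dotR]
    | cons e es =>
      simp only [lin, List.map_cons, dotR, inner_add_left, real_inner_smul_left, ih]

lemma inner_lin_right (v : List ℤ) (es : List (EuclideanSpace ℝ (Fin d)))
    (w : EuclideanSpace ℝ (Fin d)) :
    ⟪w, lin v es⟫ = dotR v (es.map (fun e => ⟪w, e⟫)) := by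
  rw [real_inner_comm, inner_lin_left]
  congr 1
  apply List.map_congr_left
  intro e _
  exact real_inner_comm _ _

lemma inner_lin_lin (Q : List (List ℤ)) (es : List (EuclideanSpace ℝ (Fin d)))
    (hG : es.map (fun e => es.map (fun f => ⟪e, f⟫)) =
      Q.map (fun r => r.map (fun z : ℤ => (z : ℝ))))
    (u v : List ℤ) :
    ⟪lin u es, lin v es⟫ = ((dot u (mulQ Q v) : ℤ) : ℝ) := by
  rw [inner_lin_left]
  have h1 : es.map (fun e => ⟪e, lin v es⟫)
      = (es.map (fun e => es.map (fun f => ⟪e, f⟫))).map (dotR v) := by
    rw [List.map_map]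
    apply List.map_congr_left
    intro e _
    simp only [Function.comp]
    exact inner_lin_right v es e
  rw [h1, hG, List.map_map]
  have h2 : Q.map (dotR v ∘ fun r => r.map (fun z : ℤ => (z : ℝ)))
      = (mulQ Q v).map (fun z : ℤ => (z : ℝ)) := by
    simp only [mulQ, List.map_map]
    apply List.map_congr_left
    intro r _
    simp only [Function.comp]
    exact dotR_cast v r
  rw [h2, dotR_cast]

lemma sum_eq_dot (n : ℕ) (u v : List ℤ) (hu : u.length = n) (hv : v.length = n) :
    ∑ j : Fin n, (((u.getD j 0 : ℤ) : ℝ) * ((v.getD j 0 : ℤ) : ℝ)) = ((dot u v : ℤ) : ℝ) := by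
  induction n generalizing u v with
  | zero =>
    have : u = [] := List.length_eq_zero_iff.mp hu
    subst this
    simp [dot]
  | succ n ih =>
    match u, v, hu, hv with
    | a :: as, b :: bs, hu, hv =>
      rw [Fin.sum_univ_succ]
      simp only [List.length_cons, Nat.add_right_cancel_iff] at hu hv
      have := ih as bs hu hv
      simp only [dot, Int.cast_add, Int.cast_mul]
      simp only [Fin.val_zero, List.getD_cons_zero, Fin.val_succ, List.getD_cons_succ]
      rw [this]

open scoped MatrixOrder ComplexOrder in
/-- A positive semidefinite real matrix is a Gram matrix. -/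
lemma exists_factor {n : ℕ} (A : Matrix (Fin n) (Fin n) ℝ) (h : A.PosSemidef) :
    ∃ B : Matrix (Fin n) (Fin n) ℝ, A = B.transpose * B := by
  have h0 : 0 ≤ A := Matrix.nonneg_iff_posSemidef.mpr h
  have h1 := CFC.sqrt_mul_sqrt_self A h0
  have h2 : IsSelfAdjoint (CFC.sqrt A) := (CFC.sqrt_nonneg A).isSelfAdjoint
  refine ⟨CFC.sqrt A, ?_⟩
  have h3 : (CFC.sqrt A).transpose = CFC.sqrt A := by
    have := h2.star_eq
    rw [Matrix.star_eq_conjTranspose, Matrix.conjTranspose_eq_transpose_of_trivial] at this
    exact this
  rw [h3, h1]

/-- An integer Gram matrix with a factorization over the integers, up to a positive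
scalar, is realized by vectors in the Euclidean space of the same dimension. -/
lemma exists_es (n W : ℕ) (c : ℝ) (hc : 0 < c) (Q Y : List (List ℤ))
    (hQ : Q = (List.finRange n).map (fun k : Fin n =>
      (List.finRange n).map (fun l : Fin n => (Q.getD (k : ℕ) []).getD (l : ℕ) 0)))
    (hY : ∀ k : Fin n, (Y.getD (k : ℕ) []).length = W)
    (hcheck : ∀ k l : Fin n, ((dot (Y.getD (k : ℕ) []) (Y.getD (l : ℕ) []) : ℤ) : ℝ)
      = c * (((Q.getD (k : ℕ) []).getD (l : ℕ) 0 : ℤ) : ℝ)) :
    ∃ es : List (EuclideanSpace ℝ (Fin n)),
      es.map (fun e => es.map (fun f => ⟪e, f⟫)) =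
        Q.map (fun r => r.map (fun z : ℤ => (z : ℝ))) := by
  let Ym : Matrix (Fin W) (Fin n) ℝ :=
    Matrix.of (fun w k => (((Y.getD (k : ℕ) []).getD (w : ℕ) 0 : ℤ) : ℝ))
  let A : Matrix (Fin n) (Fin n) ℝ :=
    Matrix.of (fun k l => (((Q.getD (k : ℕ) []).getD (l : ℕ) 0 : ℤ) : ℝ))
  have hA : A = c⁻¹ • (Ym.transpose * Ym) := by
    ext k l
    simp only [Matrix.smul_apply, Matrix.mul_apply, Matrix.transpose_apply, smul_eq_mul, Ym, A,
      Matrix.of_apply]
    rw [sum_eq_dot W _ _ (hY k) (hY l), hcheck k l]
    field_simp
  have hpsd : A.PosSemidef := by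
    rw [hA]
    have h1 := Matrix.posSemidef_conjTranspose_mul_self Ym
    rw [Matrix.conjTranspose_eq_transpose_of_trivial] at h1
    exact h1.smul (inv_pos.mpr hc).le
  obtain ⟨B, hB⟩ := exists_factor A hpsd
  have key : ∀ k l : Fin n,
      ⟪(WithLp.toLp 2 (fun j => B j k) : EuclideanSpace ℝ (Fin n)), WithLp.toLp 2 (fun j => B j l)⟫
        = (((Q.getD (k : ℕ) []).getD (l : ℕ) 0 : ℤ) : ℝ) := by
    intro k l
    have h1 : A k l = (B.transpose * B) k l := by rw [hB]
    rw [Matrix.mul_apply] at h1
    simp only [Matrix.transpose_apply, A, Matrix.of_apply] at h1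
    rw [h1, PiLp.inner_apply]
    apply Finset.sum_congr rfl
    intro j _
    simp only [RCLike.inner_apply, conj_trivial]
    ring
  refine ⟨(List.finRange n).map (fun k => WithLp.toLp 2 (fun j => B j k)), ?_⟩
  rw [hQ]
  simp only [List.map_map]
  apply List.map_congr_left
  intro k _
  simp only [Function.comp, List.map_map]
  apply List.map_congr_left
  intro l _
  simp only [Function.comp]
  exact key k l

end Geometry

section Bits

/-- Run a Boolean test on all set bits of `rest`; the function `pick` proposes the next bit. -/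
def loopBits (pick : ℕ → ℕ) (f : ℕ → Bool) : ℕ → ℕ → Bool
  | 0, rest => Nat.beq rest 0
  | fuel + 1, rest =>
    cond (Nat.beq rest 0) true
      ((fun v => cond (f v) (loopBits pick f fuel (Nat.xor rest (Nat.pow 2 v))) false) (pick rest))

lemma loopBits_spec (pick : ℕ → ℕ) (f : ℕ → Bool) (fuel rest : ℕ)
    (h : loopBits pick f fuel rest = true) (v : ℕ)
    (hv : rest.testBit v = true) : f v = true := by
  induction fuel generalizing rest with
  | zero =>
    have h0 : rest = 0 := Nat.eq_of_beq_eq_true h
    subst h0
    simp at hv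
  | succ fuel ih =>
    by_cases h0 : rest = 0
    · subst h0
      simp at hv
    · have h0' : Nat.beq rest 0 = false := by
        cases hb : Nat.beq rest 0
        · rfl
        · exact absurd (Nat.eq_of_beq_eq_true hb) h0
      simp only [loopBits, h0', cond_false] at h
      cases hf : f (pick rest)
      · simp [hf] at h
      · simp only [hf, cond_true] at h
        by_cases hvw : v = pick rest
        · rw [hvw]; exact hf
        · apply ih _ h
          have e : Nat.xor rest (Nat.pow 2 (pick rest)) = rest ^^^ 2 ^ pick rest := rfl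
          rw [e, Nat.testBit_xor, Nat.testBit_two_pow, hv]
          simp only [Bool.true_bne, Bool.not_eq_true', decide_eq_false_iff_not]
          exact fun h => hvw h.symm

/-- `noClq pick M k cand` checks that the upper-triangular bit masks `M` have no clique of
size `k` inside the bit set `cand`. -/
def noClq (pick : ℕ → ℕ) (M : ℕ → ℕ) : ℕ → ℕ → Bool
  | 0, _ => false
  | 1, cand => Nat.beq cand 0
  | k + 2, cand => loopBits pick (fun v => noClq pick M (k + 1) (Nat.land cand (M v))) 400 cand

lemma noClq_spec (pick : ℕ → ℕ) (M : ℕ → ℕ) (k cand : ℕ) (h : noClq pick M k cand = true)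
    (l : List ℕ) (hl : l.length = k) (hc : ∀ v ∈ l, cand.testBit v = true)
    (hp : l.Pairwise (fun a b => (M a).testBit b = true)) : False := by
  induction k generalizing cand l with
  | zero => simp [noClq] at h
  | succ k ih =>
    cases k with
    | zero =>
      have h0 : cand = 0 := Nat.eq_of_beq_eq_true h
      subst h0
      match l, hl with
      | [v], _ =>
        have := hc v (by simp)
        simp at this
    | succ k =>
      match l, hl, hp with
      | v :: w :: rest, hl, hp =>
        simp only [noClq] at h
        have hv := loopBits_spec _ _ _ _ h v (hc v (by simp))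
        have hp' := List.pairwise_cons.mp hp
        refine ih _ hv (w :: rest) (by simpa using hl) ?_ hp'.2
        intro x hx
        have e : Nat.land cand (M v) = cand &&& M v := rfl
        rw [e, Nat.testBit_land, Bool.and_eq_true]
        exact ⟨hc x (List.mem_cons_of_mem _ hx), hp'.1 x hx⟩

end Bits

section Checks

/-- Compare a row of integer combinations against expected Gram values. -/
def rowCheck (adj : ℕ → ℕ → Bool) (ha : List ℤ) (a : ℕ) : ℕ → List (List ℤ) → Bool
  | _, [] => true
  | b, cb :: rest =>
    (dot cb ha == (if adj a b then 3 else -1)) && rowCheck adj ha a (b + 1) rest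

lemma rowCheck_spec (adj : ℕ → ℕ → Bool) (ha : List ℤ) (a b : ℕ) (L : List (List ℤ))
    (h : rowCheck adj ha a b L = true) (i : ℕ) (hi : i < L.length) :
    dot (L.getD i []) ha = (if adj a (b + i) then 3 else -1) := by
  induction L generalizing b i with
  | nil => simp at hi
  | cons c rest ih =>
    simp only [rowCheck, Bool.and_eq_true, beq_iff_eq] at h
    cases i with
    | zero => simpa using h.1
    | succ i =>
      have := ih (b + 1) h.2 i (by simpa using hi)
      simp only [List.getD_cons_succ]
      rw [this]
      have e : b + 1 + i = b + (i + 1) := by omega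
      rw [e]

end Checks

end Vale.Agent.Borsuk
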