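import Vale.Agent.Borsuk.D63Data

namespace Vale.Agent.Borsuk.D63

theorem clique_check : noClq pick M 6 (2 ^ 321 - 1) = true := by decide +kernel

end Vale.Agent.Borsuk.D63
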