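import Vale.Agent.Borsuk.D63Data

namespace Vale.Agent.Borsuk.D63

theorem Y_rev_0 : revVec B 1 416 (Yrv.getD 0 0) = row B 1 416 (Yr.getD 0 0) := by decide +kernel

theorem Y_rev_1 : revVec B 1 416 (Yrv.getD 1 0) = row B 1 416 (Yr.getD 1 0) := by decide +kernel

theorem Y_rev_2 : revVec B 1 416 (Yrv.getD 2 0) = row B 1 416 (Yr.getD 2 0) := by decide +kernel

theorem Y_rev_3 : revVec B 1 416 (Yrv.getD 3 0) = row B 1 416 (Yr.getD 3 0) := by decide +kernel

theorem Y_rev_4 : revVec B 1 416 (Yrv.getD 4 0) = row B 1 416 (Yr.getD 4 0) := by decide +kernel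

theorem Y_rev_5 : revVec B 1 416 (Yrv.getD 5 0) = row B 1 416 (Yr.getD 5 0) := by decide +kernel

theorem Y_rev_6 : revVec B 1 416 (Yrv.getD 6 0) = row B 1 416 (Yr.getD 6 0) := by decide +kernel

theorem Y_rev_7 : revVec B 1 416 (Yrv.getD 7 0) = row B 1 416 (Yr.getD 7 0) := by decide +kernel

theorem Y_rev_8 : revVec B 1 416 (Yrv.getD 8 0) = row B 1 416 (Yr.getD 8 0) := by decide +kernel

theorem Y_rev_9 : revVec B 1 416 (Yrv.getD 9 0) = row B 1 416 (Yr.getD 9 0) := by decide +kernel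

theorem Y_rev_10 : revVec B 1 416 (Yrv.getD 10 0) = row B 1 416 (Yr.getD 10 0) := by decide +kernel

theorem Y_rev_11 : revVec B 1 416 (Yrv.getD 11 0) = row B 1 416 (Yr.getD 11 0) := by decide +kernel

theorem Y_rev_12 : revVec B 1 416 (Yrv.getD 12 0) = row B 1 416 (Yr.getD 12 0) := by decide +kernel

theorem Y_rev_13 : revVec B 1 416 (Yrv.getD 13 0) = row B 1 416 (Yr.getD 13 0) := by decide +kernel

theorem Y_rev_14 : revVec B 1 416 (Yrv.getD 14 0) = row B 1 416 (Yr.getD 14 0) := by decide +kernel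

theorem Y_rev_15 : revVec B 1 416 (Yrv.getD 15 0) = row B 1 416 (Yr.getD 15 0) := by decide +kernel

theorem Y_rev_16 : revVec B 1 416 (Yrv.getD 16 0) = row B 1 416 (Yr.getD 16 0) := by decide +kernel

theorem Y_rev_17 : revVec B 1 416 (Yrv.getD 17 0) = row B 1 416 (Yr.getD 17 0) := by decide +kernel

theorem Y_rev_18 : revVec B 1 416 (Yrv.getD 18 0) = row B 1 416 (Yr.getD 18 0) := by decide +kernel

theorem Y_rev_19 : revVec B 1 416 (Yrv.getD 19 0) = row B 1 416 (Yr.getD 19 0) := by decide +kernel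

theorem Y_rev_20 : revVec B 1 416 (Yrv.getD 20 0) = row B 1 416 (Yr.getD 20 0) := by decide +kernel

theorem Y_rev_21 : revVec B 1 416 (Yrv.getD 21 0) = row B 1 416 (Yr.getD 21 0) := by decide +kernel

theorem Y_rev_22 : revVec B 1 416 (Yrv.getD 22 0) = row B 1 416 (Yr.getD 22 0) := by decide +kernel

theorem Y_rev_23 : revVec B 1 416 (Yrv.getD 23 0) = row B 1 416 (Yr.getD 23 0) := by decide +kernel

theorem Y_rev_24 : revVec B 1 416 (Yrv.getD 24 0) = row B 1 416 (Yr.getD 24 0) := by decide +kernel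

theorem Y_rev_25 : revVec B 1 416 (Yrv.getD 25 0) = row B 1 416 (Yr.getD 25 0) := by decide +kernel

theorem Y_rev_26 : revVec B 1 416 (Yrv.getD 26 0) = row B 1 416 (Yr.getD 26 0) := by decide +kernel

theorem Y_rev_27 : revVec B 1 416 (Yrv.getD 27 0) = row B 1 416 (Yr.getD 27 0) := by decide +kernel

theorem Y_rev_28 : revVec B 1 416 (Yrv.getD 28 0) = row B 1 416 (Yr.getD 28 0) := by decide +kernel

theorem Y_rev_29 : revVec B 1 416 (Yrv.getD 29 0) = row B 1 416 (Yr.getD 29 0) := by decide +kernel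

theorem Y_rev_30 : revVec B 1 416 (Yrv.getD 30 0) = row B 1 416 (Yr.getD 30 0) := by decide +kernel

theorem Y_rev_31 : revVec B 1 416 (Yrv.getD 31 0) = row B 1 416 (Yr.getD 31 0) := by decide +kernel

theorem Y_rev_32 : revVec B 1 416 (Yrv.getD 32 0) = row B 1 416 (Yr.getD 32 0) := by decide +kernel

theorem Y_rev_33 : revVec B 1 416 (Yrv.getD 33 0) = row B 1 416 (Yr.getD 33 0) := by decide +kernel

theorem Y_rev_34 : revVec B 1 416 (Yrv.getD 34 0) = row B 1 416 (Yr.getD 34 0) := by decide +kernel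

theorem Y_rev_35 : revVec B 1 416 (Yrv.getD 35 0) = row B 1 416 (Yr.getD 35 0) := by decide +kernel

theorem Y_rev_36 : revVec B 1 416 (Yrv.getD 36 0) = row B 1 416 (Yr.getD 36 0) := by decide +kernel

theorem Y_rev_37 : revVec B 1 416 (Yrv.getD 37 0) = row B 1 416 (Yr.getD 37 0) := by decide +kernel

theorem Y_rev_38 : revVec B 1 416 (Yrv.getD 38 0) = row B 1 416 (Yr.getD 38 0) := by decide +kernel

theorem Y_rev_39 : revVec B 1 416 (Yrv.getD 39 0) = row B 1 416 (Yr.getD 39 0) := by decide +kernel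

theorem Y_rev_40 : revVec B 1 416 (Yrv.getD 40 0) = row B 1 416 (Yr.getD 40 0) := by decide +kernel

theorem Y_rev_41 : revVec B 1 416 (Yrv.getD 41 0) = row B 1 416 (Yr.getD 41 0) := by decide +kernel

theorem Y_rev_42 : revVec B 1 416 (Yrv.getD 42 0) = row B 1 416 (Yr.getD 42 0) := by decide +kernel

theorem Y_rev_43 : revVec B 1 416 (Yrv.getD 43 0) = row B 1 416 (Yr.getD 43 0) := by decide +kernel

theorem Y_rev_44 : revVec B 1 416 (Yrv.getD 44 0) = row B 1 416 (Yr.getD 44 0) := by decide +kernel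

theorem Y_rev_45 : revVec B 1 416 (Yrv.getD 45 0) = row B 1 416 (Yr.getD 45 0) := by decide +kernel

theorem Y_rev_46 : revVec B 1 416 (Yrv.getD 46 0) = row B 1 416 (Yr.getD 46 0) := by decide +kernel

theorem Y_rev_47 : revVec B 1 416 (Yrv.getD 47 0) = row B 1 416 (Yr.getD 47 0) := by decide +kernel

theorem Y_rev_48 : revVec B 1 416 (Yrv.getD 48 0) = row B 1 416 (Yr.getD 48 0) := by decide +kernel

theorem Y_rev_49 : revVec B 1 416 (Yrv.getD 49 0) = row B 1 416 (Yr.getD 49 0) := by decide +kernel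

theorem Y_rev_50 : revVec B 1 416 (Yrv.getD 50 0) = row B 1 416 (Yr.getD 50 0) := by decide +kernel

theorem Y_rev_51 : revVec B 1 416 (Yrv.getD 51 0) = row B 1 416 (Yr.getD 51 0) := by decide +kernel

theorem Y_rev_52 : revVec B 1 416 (Yrv.getD 52 0) = row B 1 416 (Yr.getD 52 0) := by decide +kernel

theorem Y_rev_53 : revVec B 1 416 (Yrv.getD 53 0) = row B 1 416 (Yr.getD 53 0) := by decide +kernel

theorem Y_rev_54 : revVec B 1 416 (Yrv.getD 54 0) = row B 1 416 (Yr.getD 54 0) := by decide +kernel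

theorem Y_rev_55 : revVec B 1 416 (Yrv.getD 55 0) = row B 1 416 (Yr.getD 55 0) := by decide +kernel

theorem Y_rev_56 : revVec B 1 416 (Yrv.getD 56 0) = row B 1 416 (Yr.getD 56 0) := by decide +kernel

theorem Y_rev_57 : revVec B 1 416 (Yrv.getD 57 0) = row B 1 416 (Yr.getD 57 0) := by decide +kernel

theorem Y_rev_58 : revVec B 1 416 (Yrv.getD 58 0) = row B 1 416 (Yr.getD 58 0) := by decide +kernel

theorem Y_rev_59 : revVec B 1 416 (Yrv.getD 59 0) = row B 1 416 (Yr.getD 59 0) := by decide +kernel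

theorem Y_rev_60 : revVec B 1 416 (Yrv.getD 60 0) = row B 1 416 (Yr.getD 60 0) := by decide +kernel

theorem Y_rev_61 : revVec B 1 416 (Yrv.getD 61 0) = row B 1 416 (Yr.getD 61 0) := by decide +kernel

theorem Y_rev_62 : revVec B 1 416 (Yrv.getD 62 0) = row B 1 416 (Yr.getD 62 0) := by decide +kernel

end Vale.Agent.Borsuk.D63
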