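import Vale.Agent.Borsuk.D63Data

namespace Vale.Agent.Borsuk.D63

theorem Y_check : (List.finRange 63).all (fun k => (List.finRange 63).all (fun l =>
    fdy (Yr.getD (k : ℕ) 0) (Yrv.getD (l : ℕ) 0) ==
      96 * (Q.getD (k : ℕ) []).getD (l : ℕ) 0)) = true := by decide +kernel

end Vale.Agent.Borsuk.D63
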