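import Vale.Agent.Borsuk.D63Data

namespace Vale.Agent.Borsuk.D63

theorem Q_eq : Q = (List.finRange 63).map (fun k : Fin 63 =>
    (List.finRange 63).map (fun l : Fin 63 => (Q.getD (k : ℕ) []).getD (l : ℕ) 0)) := by
  decide +kernel

theorem rows_ok : Er.all (okRow B 63 1023) = true := by decide +kernel

theorem ones_digits : digits B 63 ones = List.replicate 63 1 := by decide +kernel

theorem ones_ok : okRow B 63 1023 ones = true := by decide +kernel

theorem ones416_digits : digits B 416 ones416 = List.replicate 416 1 := by decide +kernel

theorem ones416_ok : okRow B 416 16 ones416 = true := by decide +kernel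

theorem rm_ok : okRow B 63 1023 rm = true := by decide +kernel

end Vale.Agent.Borsuk.D63
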