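import Vale.Agent.Borsuk.D63GramA
import Vale.Agent.Borsuk.D63GramB
import Vale.Agent.Borsuk.D63GramC
import Vale.Agent.Borsuk.D63GramD

namespace Vale.Agent.Borsuk.D63

/-- All rows of the packed factor are within bounds. -/
lemma Yr_ok_get (k : Fin 63) : okRow B 416 16 (Yr.getD (k : ℕ) 0) = true := by
  obtain ⟨k, hk⟩ := k
  interval_cases k
  · exact Yr_ok_0
  · exact Yr_ok_1
  · exact Yr_ok_2
  · exact Yr_ok_3
  · exact Yr_ok_4
  · exact Yr_ok_5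
  · exact Yr_ok_6
  · exact Yr_ok_7
  · exact Yr_ok_8
  · exact Yr_ok_9
  · exact Yr_ok_10
  · exact Yr_ok_11
  · exact Yr_ok_12
  · exact Yr_ok_13
  · exact Yr_ok_14
  · exact Yr_ok_15
  · exact Yr_ok_16
  · exact Yr_ok_17
  · exact Yr_ok_18
  · exact Yr_ok_19
  · exact Yr_ok_20
  · exact Yr_ok_21
  · exact Yr_ok_22
  · exact Yr_ok_23
  · exact Yr_ok_24
  · exact Yr_ok_25
  · exact Yr_ok_26
  · exact Yr_ok_27
  · exact Yr_ok_28
  · exact Yr_ok_29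
  · exact Yr_ok_30
  · exact Yr_ok_31
  · exact Yr_ok_32
  · exact Yr_ok_33
  · exact Yr_ok_34
  · exact Yr_ok_35
  · exact Yr_ok_36
  · exact Yr_ok_37
  · exact Yr_ok_38
  · exact Yr_ok_39
  · exact Yr_ok_40
  · exact Yr_ok_41
  · exact Yr_ok_42
  · exact Yr_ok_43
  · exact Yr_ok_44
  · exact Yr_ok_45
  · exact Yr_ok_46
  · exact Yr_ok_47
  · exact Yr_ok_48
  · exact Yr_ok_49
  · exact Yr_ok_50
  · exact Yr_ok_51
  · exact Yr_ok_52
  · exact Yr_ok_53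
  · exact Yr_ok_54
  · exact Yr_ok_55
  · exact Yr_ok_56
  · exact Yr_ok_57
  · exact Yr_ok_58
  · exact Yr_ok_59
  · exact Yr_ok_60
  · exact Yr_ok_61
  · exact Yr_ok_62

/-- All reversed rows of the packed factor are within bounds. -/
lemma Yrv_ok_get (k : Fin 63) : okRow B 416 16 (Yrv.getD (k : ℕ) 0) = true := by
  obtain ⟨k, hk⟩ := k
  interval_cases k
  · exact Yrv_ok_0
  · exact Yrv_ok_1
  · exact Yrv_ok_2
  · exact Yrv_ok_3
  · exact Yrv_ok_4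
  · exact Yrv_ok_5
  · exact Yrv_ok_6
  · exact Yrv_ok_7
  · exact Yrv_ok_8
  · exact Yrv_ok_9
  · exact Yrv_ok_10
  · exact Yrv_ok_11
  · exact Yrv_ok_12
  · exact Yrv_ok_13
  · exact Yrv_ok_14
  · exact Yrv_ok_15
  · exact Yrv_ok_16
  · exact Yrv_ok_17
  · exact Yrv_ok_18
  · exact Yrv_ok_19
  · exact Yrv_ok_20
  · exact Yrv_ok_21
  · exact Yrv_ok_22
  · exact Yrv_ok_23
  · exact Yrv_ok_24
  · exact Yrv_ok_25
  · exact Yrv_ok_26
  · exact Yrv_ok_27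
  · exact Yrv_ok_28
  · exact Yrv_ok_29
  · exact Yrv_ok_30
  · exact Yrv_ok_31
  · exact Yrv_ok_32
  · exact Yrv_ok_33
  · exact Yrv_ok_34
  · exact Yrv_ok_35
  · exact Yrv_ok_36
  · exact Yrv_ok_37
  · exact Yrv_ok_38
  · exact Yrv_ok_39
  · exact Yrv_ok_40
  · exact Yrv_ok_41
  · exact Yrv_ok_42
  · exact Yrv_ok_43
  · exact Yrv_ok_44
  · exact Yrv_ok_45
  · exact Yrv_ok_46
  · exact Yrv_ok_47
  · exact Yrv_ok_48
  · exact Yrv_ok_49
  · exact Yrv_ok_50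
  · exact Yrv_ok_51
  · exact Yrv_ok_52
  · exact Yrv_ok_53
  · exact Yrv_ok_54
  · exact Yrv_ok_55
  · exact Yrv_ok_56
  · exact Yrv_ok_57
  · exact Yrv_ok_58
  · exact Yrv_ok_59
  · exact Yrv_ok_60
  · exact Yrv_ok_61
  · exact Yrv_ok_62

/-- Reversed rows agree with the rows. -/
lemma Y_rev_get (k : Fin 63) :
    revVec B 1 416 (Yrv.getD (k : ℕ) 0) = row B 1 416 (Yr.getD (k : ℕ) 0) := by
  obtain ⟨k, hk⟩ := k
  interval_cases k
  · exact Y_rev_0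
  · exact Y_rev_1
  · exact Y_rev_2
  · exact Y_rev_3
  · exact Y_rev_4
  · exact Y_rev_5
  · exact Y_rev_6
  · exact Y_rev_7
  · exact Y_rev_8
  · exact Y_rev_9
  · exact Y_rev_10
  · exact Y_rev_11
  · exact Y_rev_12
  · exact Y_rev_13
  · exact Y_rev_14
  · exact Y_rev_15
  · exact Y_rev_16
  · exact Y_rev_17
  · exact Y_rev_18
  · exact Y_rev_19
  · exact Y_rev_20
  · exact Y_rev_21
  · exact Y_rev_22
  · exact Y_rev_23
  · exact Y_rev_24
  · exact Y_rev_25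
  · exact Y_rev_26
  · exact Y_rev_27
  · exact Y_rev_28
  · exact Y_rev_29
  · exact Y_rev_30
  · exact Y_rev_31
  · exact Y_rev_32
  · exact Y_rev_33
  · exact Y_rev_34
  · exact Y_rev_35
  · exact Y_rev_36
  · exact Y_rev_37
  · exact Y_rev_38
  · exact Y_rev_39
  · exact Y_rev_40
  · exact Y_rev_41
  · exact Y_rev_42
  · exact Y_rev_43
  · exact Y_rev_44
  · exact Y_rev_45
  · exact Y_rev_46
  · exact Y_rev_47
  · exact Y_rev_48
  · exact Y_rev_49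
  · exact Y_rev_50
  · exact Y_rev_51
  · exact Y_rev_52
  · exact Y_rev_53
  · exact Y_rev_54
  · exact Y_rev_55
  · exact Y_rev_56
  · exact Y_rev_57
  · exact Y_rev_58
  · exact Y_rev_59
  · exact Y_rev_60
  · exact Y_rev_61
  · exact Y_rev_62

end Vale.Agent.Borsuk.D63
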