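import Vale.Agent.Borsuk.D63Data

namespace Vale.Agent.Borsuk.D63

theorem Yr_ok_0 : okRow B 416 16 (Yr.getD 0 0) = true := by decide +kernel

theorem Yrv_ok_0 : okRow B 416 16 (Yrv.getD 0 0) = true := by decide +kernel

theorem Yr_ok_1 : okRow B 416 16 (Yr.getD 1 0) = true := by decide +kernel

theorem Yrv_ok_1 : okRow B 416 16 (Yrv.getD 1 0) = true := by decide +kernel

theorem Yr_ok_2 : okRow B 416 16 (Yr.getD 2 0) = true := by decide +kernel

theorem Yrv_ok_2 : okRow B 416 16 (Yrv.getD 2 0) = true := by decide +kernel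

theorem Yr_ok_3 : okRow B 416 16 (Yr.getD 3 0) = true := by decide +kernel

theorem Yrv_ok_3 : okRow B 416 16 (Yrv.getD 3 0) = true := by decide +kernel

theorem Yr_ok_4 : okRow B 416 16 (Yr.getD 4 0) = true := by decide +kernel

theorem Yrv_ok_4 : okRow B 416 16 (Yrv.getD 4 0) = true := by decide +kernel

theorem Yr_ok_5 : okRow B 416 16 (Yr.getD 5 0) = true := by decide +kernel

theorem Yrv_ok_5 : okRow B 416 16 (Yrv.getD 5 0) = true := by decide +kernel

theorem Yr_ok_6 : okRow B 416 16 (Yr.getD 6 0) = true := by decide +kernel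

theorem Yrv_ok_6 : okRow B 416 16 (Yrv.getD 6 0) = true := by decide +kernel

theorem Yr_ok_7 : okRow B 416 16 (Yr.getD 7 0) = true := by decide +kernel

theorem Yrv_ok_7 : okRow B 416 16 (Yrv.getD 7 0) = true := by decide +kernel

theorem Yr_ok_8 : okRow B 416 16 (Yr.getD 8 0) = true := by decide +kernel

theorem Yrv_ok_8 : okRow B 416 16 (Yrv.getD 8 0) = true := by decide +kernel

theorem Yr_ok_9 : okRow B 416 16 (Yr.getD 9 0) = true := by decide +kernel

theorem Yrv_ok_9 : okRow B 416 16 (Yrv.getD 9 0) = true := by decide +kernel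

theorem Yr_ok_10 : okRow B 416 16 (Yr.getD 10 0) = true := by decide +kernel

theorem Yrv_ok_10 : okRow B 416 16 (Yrv.getD 10 0) = true := by decide +kernel

theorem Yr_ok_11 : okRow B 416 16 (Yr.getD 11 0) = true := by decide +kernel

theorem Yrv_ok_11 : okRow B 416 16 (Yrv.getD 11 0) = true := by decide +kernel

theorem Yr_ok_12 : okRow B 416 16 (Yr.getD 12 0) = true := by decide +kernel

theorem Yrv_ok_12 : okRow B 416 16 (Yrv.getD 12 0) = true := by decide +kernel

theorem Yr_ok_13 : okRow B 416 16 (Yr.getD 13 0) = true := by decide +kernel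

theorem Yrv_ok_13 : okRow B 416 16 (Yrv.getD 13 0) = true := by decide +kernel

theorem Yr_ok_14 : okRow B 416 16 (Yr.getD 14 0) = true := by decide +kernel

theorem Yrv_ok_14 : okRow B 416 16 (Yrv.getD 14 0) = true := by decide +kernel

theorem Yr_ok_15 : okRow B 416 16 (Yr.getD 15 0) = true := by decide +kernel

theorem Yrv_ok_15 : okRow B 416 16 (Yrv.getD 15 0) = true := by decide +kernel

theorem Yr_ok_16 : okRow B 416 16 (Yr.getD 16 0) = true := by decide +kernel

theorem Yrv_ok_16 : okRow B 416 16 (Yrv.getD 16 0) = true := by decide +kernel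

theorem Yr_ok_17 : okRow B 416 16 (Yr.getD 17 0) = true := by decide +kernel

theorem Yrv_ok_17 : okRow B 416 16 (Yrv.getD 17 0) = true := by decide +kernel

theorem Yr_ok_18 : okRow B 416 16 (Yr.getD 18 0) = true := by decide +kernel

theorem Yrv_ok_18 : okRow B 416 16 (Yrv.getD 18 0) = true := by decide +kernel

theorem Yr_ok_19 : okRow B 416 16 (Yr.getD 19 0) = true := by decide +kernel

theorem Yrv_ok_19 : okRow B 416 16 (Yrv.getD 19 0) = true := by decide +kernel

theorem Yr_ok_20 : okRow B 416 16 (Yr.getD 20 0) = true := by decide +kernel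

theorem Yrv_ok_20 : okRow B 416 16 (Yrv.getD 20 0) = true := by decide +kernel

theorem Yr_ok_21 : okRow B 416 16 (Yr.getD 21 0) = true := by decide +kernel

theorem Yrv_ok_21 : okRow B 416 16 (Yrv.getD 21 0) = true := by decide +kernel

theorem Yr_ok_22 : okRow B 416 16 (Yr.getD 22 0) = true := by decide +kernel

theorem Yrv_ok_22 : okRow B 416 16 (Yrv.getD 22 0) = true := by decide +kernel

theorem Yr_ok_23 : okRow B 416 16 (Yr.getD 23 0) = true := by decide +kernel

theorem Yrv_ok_23 : okRow B 416 16 (Yrv.getD 23 0) = true := by decide +kernel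

theorem Yr_ok_24 : okRow B 416 16 (Yr.getD 24 0) = true := by decide +kernel

theorem Yrv_ok_24 : okRow B 416 16 (Yrv.getD 24 0) = true := by decide +kernel

theorem Yr_ok_25 : okRow B 416 16 (Yr.getD 25 0) = true := by decide +kernel

theorem Yrv_ok_25 : okRow B 416 16 (Yrv.getD 25 0) = true := by decide +kernel

theorem Yr_ok_26 : okRow B 416 16 (Yr.getD 26 0) = true := by decide +kernel

theorem Yrv_ok_26 : okRow B 416 16 (Yrv.getD 26 0) = true := by decide +kernel

theorem Yr_ok_27 : okRow B 416 16 (Yr.getD 27 0) = true := by decide +kernel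

theorem Yrv_ok_27 : okRow B 416 16 (Yrv.getD 27 0) = true := by decide +kernel

theorem Yr_ok_28 : okRow B 416 16 (Yr.getD 28 0) = true := by decide +kernel

theorem Yrv_ok_28 : okRow B 416 16 (Yrv.getD 28 0) = true := by decide +kernel

theorem Yr_ok_29 : okRow B 416 16 (Yr.getD 29 0) = true := by decide +kernel

theorem Yrv_ok_29 : okRow B 416 16 (Yrv.getD 29 0) = true := by decide +kernel

theorem Yr_ok_30 : okRow B 416 16 (Yr.getD 30 0) = true := by decide +kernel

theorem Yrv_ok_30 : okRow B 416 16 (Yrv.getD 30 0) = true := by decide +kernel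

theorem Yr_ok_31 : okRow B 416 16 (Yr.getD 31 0) = true := by decide +kernel

theorem Yrv_ok_31 : okRow B 416 16 (Yrv.getD 31 0) = true := by decide +kernel

theorem Yr_ok_32 : okRow B 416 16 (Yr.getD 32 0) = true := by decide +kernel

theorem Yrv_ok_32 : okRow B 416 16 (Yrv.getD 32 0) = true := by decide +kernel

theorem Yr_ok_33 : okRow B 416 16 (Yr.getD 33 0) = true := by decide +kernel

theorem Yrv_ok_33 : okRow B 416 16 (Yrv.getD 33 0) = true := by decide +kernel

theorem Yr_ok_34 : okRow B 416 16 (Yr.getD 34 0) = true := by decide +kernel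

theorem Yrv_ok_34 : okRow B 416 16 (Yrv.getD 34 0) = true := by decide +kernel

theorem Yr_ok_35 : okRow B 416 16 (Yr.getD 35 0) = true := by decide +kernel

theorem Yrv_ok_35 : okRow B 416 16 (Yrv.getD 35 0) = true := by decide +kernel

theorem Yr_ok_36 : okRow B 416 16 (Yr.getD 36 0) = true := by decide +kernel

theorem Yrv_ok_36 : okRow B 416 16 (Yrv.getD 36 0) = true := by decide +kernel

theorem Yr_ok_37 : okRow B 416 16 (Yr.getD 37 0) = true := by decide +kernel

theorem Yrv_ok_37 : okRow B 416 16 (Yrv.getD 37 0) = true := by decide +kernel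

theorem Yr_ok_38 : okRow B 416 16 (Yr.getD 38 0) = true := by decide +kernel

theorem Yrv_ok_38 : okRow B 416 16 (Yrv.getD 38 0) = true := by decide +kernel

theorem Yr_ok_39 : okRow B 416 16 (Yr.getD 39 0) = true := by decide +kernel

theorem Yrv_ok_39 : okRow B 416 16 (Yrv.getD 39 0) = true := by decide +kernel

theorem Yr_ok_40 : okRow B 416 16 (Yr.getD 40 0) = true := by decide +kernel

theorem Yrv_ok_40 : okRow B 416 16 (Yrv.getD 40 0) = true := by decide +kernel

theorem Yr_ok_41 : okRow B 416 16 (Yr.getD 41 0) = true := by decide +kernel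

theorem Yrv_ok_41 : okRow B 416 16 (Yrv.getD 41 0) = true := by decide +kernel

theorem Yr_ok_42 : okRow B 416 16 (Yr.getD 42 0) = true := by decide +kernel

theorem Yrv_ok_42 : okRow B 416 16 (Yrv.getD 42 0) = true := by decide +kernel

theorem Yr_ok_43 : okRow B 416 16 (Yr.getD 43 0) = true := by decide +kernel

theorem Yrv_ok_43 : okRow B 416 16 (Yrv.getD 43 0) = true := by decide +kernel

theorem Yr_ok_44 : okRow B 416 16 (Yr.getD 44 0) = true := by decide +kernel

theorem Yrv_ok_44 : okRow B 416 16 (Yrv.getD 44 0) = true := by decide +kernel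

theorem Yr_ok_45 : okRow B 416 16 (Yr.getD 45 0) = true := by decide +kernel

theorem Yrv_ok_45 : okRow B 416 16 (Yrv.getD 45 0) = true := by decide +kernel

theorem Yr_ok_46 : okRow B 416 16 (Yr.getD 46 0) = true := by decide +kernel

theorem Yrv_ok_46 : okRow B 416 16 (Yrv.getD 46 0) = true := by decide +kernel

theorem Yr_ok_47 : okRow B 416 16 (Yr.getD 47 0) = true := by decide +kernel

theorem Yrv_ok_47 : okRow B 416 16 (Yrv.getD 47 0) = true := by decide +kernel

theorem Yr_ok_48 : okRow B 416 16 (Yr.getD 48 0) = true := by decide +kernel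

theorem Yrv_ok_48 : okRow B 416 16 (Yrv.getD 48 0) = true := by decide +kernel

theorem Yr_ok_49 : okRow B 416 16 (Yr.getD 49 0) = true := by decide +kernel

theorem Yrv_ok_49 : okRow B 416 16 (Yrv.getD 49 0) = true := by decide +kernel

theorem Yr_ok_50 : okRow B 416 16 (Yr.getD 50 0) = true := by decide +kernel

theorem Yrv_ok_50 : okRow B 416 16 (Yrv.getD 50 0) = true := by decide +kernel

theorem Yr_ok_51 : okRow B 416 16 (Yr.getD 51 0) = true := by decide +kernel

theorem Yrv_ok_51 : okRow B 416 16 (Yrv.getD 51 0) = true := by decide +kernel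

theorem Yr_ok_52 : okRow B 416 16 (Yr.getD 52 0) = true := by decide +kernel

theorem Yrv_ok_52 : okRow B 416 16 (Yrv.getD 52 0) = true := by decide +kernel

theorem Yr_ok_53 : okRow B 416 16 (Yr.getD 53 0) = true := by decide +kernel

theorem Yrv_ok_53 : okRow B 416 16 (Yrv.getD 53 0) = true := by decide +kernel

theorem Yr_ok_54 : okRow B 416 16 (Yr.getD 54 0) = true := by decide +kernel

theorem Yrv_ok_54 : okRow B 416 16 (Yrv.getD 54 0) = true := by decide +kernel

theorem Yr_ok_55 : okRow B 416 16 (Yr.getD 55 0) = true := by decide +kernel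

theorem Yrv_ok_55 : okRow B 416 16 (Yrv.getD 55 0) = true := by decide +kernel

theorem Yr_ok_56 : okRow B 416 16 (Yr.getD 56 0) = true := by decide +kernel

theorem Yrv_ok_56 : okRow B 416 16 (Yrv.getD 56 0) = true := by decide +kernel

theorem Yr_ok_57 : okRow B 416 16 (Yr.getD 57 0) = true := by decide +kernel

theorem Yrv_ok_57 : okRow B 416 16 (Yrv.getD 57 0) = true := by decide +kernel

theorem Yr_ok_58 : okRow B 416 16 (Yr.getD 58 0) = true := by decide +kernel

theorem Yrv_ok_58 : okRow B 416 16 (Yrv.getD 58 0) = true := by decide +kernel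

theorem Yr_ok_59 : okRow B 416 16 (Yr.getD 59 0) = true := by decide +kernel

theorem Yrv_ok_59 : okRow B 416 16 (Yrv.getD 59 0) = true := by decide +kernel

theorem Yr_ok_60 : okRow B 416 16 (Yr.getD 60 0) = true := by decide +kernel

theorem Yrv_ok_60 : okRow B 416 16 (Yrv.getD 60 0) = true := by decide +kernel

theorem Yr_ok_61 : okRow B 416 16 (Yr.getD 61 0) = true := by decide +kernel

theorem Yrv_ok_61 : okRow B 416 16 (Yrv.getD 61 0) = true := by decide +kernel

theorem Yr_ok_62 : okRow B 416 16 (Yr.getD 62 0) = true := by decide +kernel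

theorem Yrv_ok_62 : okRow B 416 16 (Yrv.getD 62 0) = true := by decide +kernel

end Vale.Agent.Borsuk.D63
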