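import Vale.Agent.Borsuk.D63Pairs
import Vale.Agent.Borsuk.D63Clq
import Vale.Agent.Borsuk.D63Gram

open scoped RealInnerProductSpace

namespace Vale.Agent.Borsuk.D63

/-- The ambient space. -/
abbrev E63 : Type := EuclideanSpace ℝ (Fin 63)

lemma hB2 : 2 ≤ B := by decide +kernel

lemma hBig : 2 * (62 + 1) * 1023 * 1023 < B := by decide +kernel

lemma hBig416 : 2 * (415 + 1) * 16 * 16 < B := by decide +kernel

lemma fdy_spec (x z : ℕ) (hx : okRow B 416 16 x = true) (hz : okRow B 416 16 z = true) :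
    dot (row B 1 416 x) (revVec B 1 416 z) = fdy x z :=
  fdot_spec B 415 16 1 1 ones416 hB2 hBig416 ones416_digits ones416_ok x z hx hz

lemma Yr_length : Yr.length = 63 := by decide +kernel

lemma Yrv_length : Yrv.length = 63 := by decide +kernel

lemma Y_getD (k : Fin 63) : Y.getD (k : ℕ) [] = row B 1 416 (Yr.getD (k : ℕ) 0) := by
  have hk : (k : ℕ) < Yr.length := by rw [Yr_length]; exact k.isLt
  simp [Y, List.getD_eq_getElem?_getD, hk]

lemma Y_getD' (k : Fin 63) : Y.getD (k : ℕ) [] = revVec B 1 416 (Yrv.getD (k : ℕ) 0) := by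
  rw [Y_getD k, Y_rev_get k]

lemma Y_dot (k l : Fin 63) : dot (Y.getD (k : ℕ) []) (Y.getD (l : ℕ) [])
    = 96 * (Q.getD (k : ℕ) []).getD (l : ℕ) 0 := by
  rw [Y_getD k, Y_getD' l, fdy_spec _ _ (Yr_ok_get k) (Yrv_ok_get l)]
  have h := List.all_eq_true.mp Y_check k (List.mem_finRange k)
  have h' := List.all_eq_true.mp h l (List.mem_finRange l)
  exact beq_iff_eq.mp h'

lemma Y_len (k : Fin 63) : (Y.getD (k : ℕ) []).length = 416 := by
  rw [Y_getD k]
  simp [row, length_digits]

lemma exists_basis : ∃ es : List E63, es.map (fun e => es.map (fun f => ⟪e, f⟫)) =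
    Q.map (fun r => r.map (fun z : ℤ => (z : ℝ))) :=
  exists_es 63 416 96 (by norm_num) Q Y Q_eq Y_len (fun k l => by
    rw [Y_dot k l]; push_cast; ring)

/-- The basis vectors. -/
noncomputable def es : List E63 := Classical.choose exists_basis

lemma es_gram : es.map (fun e => es.map (fun f => ⟪e, f⟫)) =
    Q.map (fun r => r.map (fun z : ℤ => (z : ℝ))) :=
  Classical.choose_spec exists_basis

/-- Coordinates of a point. -/
def cv (a : ℕ) : List ℤ := revVec B 512 63 (Rc.getD a 0)

/-- Gram matrix times the coordinates of a point. -/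
def hv (a : ℕ) : List ℤ := row B 512 63 (Eh.getD a 0)

/-- Coordinates of eight times the projected vertex. -/
def mmv : List ℤ := revVec B 512 63 rm

/-- The 320 points. -/
noncomputable def y (a : ℕ) : E63 := lin (cv a) es

lemma fdt_spec (x z : ℕ) (hx : okRow B 63 1023 x = true) (hz : okRow B 63 1023 z = true) :
    dot (row B 512 63 x) (revVec B 512 63 z) = fdt x z :=
  fdot_spec B 62 1023 512 512 ones hB2 hBig ones_digits ones_ok x z hx hz

lemma check_all (a : ℕ) (ha : a < 320) : checkA a = true :=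
  List.all_eq_true.mp pairs_check a (List.mem_range'_1.mpr ⟨Nat.zero_le _, by omega⟩)

lemma check_parts (a : ℕ) (ha : a < 320) :
    okRow B 63 1023 (Rc.getD a 0) = true ∧ okRow B 63 1023 (Eh.getD a 0) = true ∧
    mulCheck B (fun e => fdt e (Rc.getD a 0)) 512 Er (Eh.getD a 0) = true ∧
    fdt (Eh.getD a 0) (Rc.getD a 0) = 15 ∧
    fdt (Eh.getD a 0) rm = 8 * (if adj a 320 then 3 else -1) ∧
    rowCheckF adj (fun r => fdt (Eh.getD a 0) r) a (a + 1) (List.drop (a + 1) Rc) = true := by
  have h := check_all a ha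
  simp only [checkA, Bool.and_eq_true, beq_iff_eq] at h
  obtain ⟨⟨⟨⟨⟨h1, h2⟩, h3⟩, h4⟩, h5⟩, h6⟩ := h
  exact ⟨h1, h2, h3, h4, h5, h6⟩

lemma Er_length : Er.length = 63 := by decide +kernel

lemma Rc_length : Rc.length = 320 := by decide +kernel

lemma mulQ_cv (a : ℕ) (ha : a < 320) : mulQ Q (cv a) = hv a := by
  obtain ⟨hrc, _, hm, _, _, _⟩ := check_parts a ha
  have h := mulCheck_spec B (fun e => fdt e (Rc.getD a 0)) 512 Er (Eh.getD a 0) hm
  rw [Er_length] at h
  simp only [hv]
  rw [← h]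
  simp only [mulQ, Q, List.map_map]
  apply List.map_congr_left
  intro e he
  have hok : okRow B 63 1023 e = true := List.all_eq_true.mp rows_ok e he
  simp only [Function.comp]
  rw [dot_comm]
  exact fdt_spec e _ hok hrc

lemma inner_y_y (a b : ℕ) (ha : a < 320) :
    ⟪y b, y a⟫ = ((dot (cv b) (hv a) : ℤ) : ℝ) := by
  simp only [y]
  rw [inner_lin_lin Q es es_gram, mulQ_cv a ha]

lemma dot_self (a : ℕ) (ha : a < 320) : dot (cv a) (hv a) = 15 := by
  obtain ⟨hrc, heh, _, h15, _, _⟩ := check_parts a ha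
  rw [dot_comm, hv, cv, fdt_spec _ _ heh hrc, h15]

lemma getD_drop' (L : List ℕ) (i j : ℕ) : (List.drop i L).getD j 0 = L.getD (i + j) 0 := by
  simp only [List.getD_eq_getElem?_getD, List.getElem?_drop]

lemma dot_pair (a b : ℕ) (hab : a < b) (hb : b < 320) :
    dot (cv b) (hv a) = if adj a b then 3 else -1 := by
  have ha : a < 320 := by omega
  obtain ⟨_, heh, _, _, _, hr⟩ := check_parts a ha
  obtain ⟨hrb, _, _, _, _, _⟩ := check_parts b hb
  have hlen : b - a - 1 < (List.drop (a + 1) Rc).length := by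
    rw [List.length_drop, Rc_length]; omega
  have h := rowCheckF_spec adj (fun r => fdt (Eh.getD a 0) r) a (a + 1) (List.drop (a + 1) Rc) hr
    (b - a - 1) hlen
  have e : a + 1 + (b - a - 1) = b := by omega
  simp only [getD_drop', e] at h
  rw [dot_comm, hv, cv, fdt_spec _ _ heh hrb, h]

lemma dot_mm (a : ℕ) (ha : a < 320) :
    dot mmv (hv a) = 8 * (if adj a 320 then 3 else -1) := by
  obtain ⟨_, heh, _, _, h8, _⟩ := check_parts a ha
  rw [dot_comm, hv, mmv, fdt_spec _ _ heh rm_ok, h8]

lemma mm_self : dot mmv (mulQ Q mmv) = 832 := by decide +kernel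

/-- The scale of the extra point. -/
noncomputable def tt : ℝ := (Real.sqrt 222 - 1) / 13

lemma sqrt222_sq : Real.sqrt 222 * Real.sqrt 222 = 222 := Real.mul_self_sqrt (by norm_num)

lemma tt_pos : 0 < tt := by
  have h : (1 : ℝ) < Real.sqrt 222 := by
    rw [Real.lt_sqrt (by norm_num)]
    norm_num
  unfold tt
  apply div_pos <;> linarith

lemma tt_eq : 13 * tt ^ 2 + 2 * tt = 17 := by
  have h := sqrt222_sq
  unfold tt
  field_simp
  nlinarith [h]

/-- The projection of the extra vertex. -/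
noncomputable def pp : E63 := (1 / 8 : ℝ) • lin mmv es

lemma inner_pp_y (a : ℕ) (ha : a < 320) :
    ⟪pp, y a⟫ = ((if adj a 320 then 3 else -1 : ℤ) : ℝ) := by
  simp only [pp, y]
  rw [real_inner_smul_left, inner_lin_lin Q es es_gram, mulQ_cv a ha, dot_mm a ha]
  push_cast
  ring

lemma inner_pp_pp : ⟪pp, pp⟫ = 13 := by
  simp only [pp]
  rw [real_inner_smul_left, real_inner_smul_right, inner_lin_lin Q es es_gram, mm_self]
  norm_num

/-- The extra point. -/
noncomputable def xx : E63 := tt • pp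

/-- All the points. -/
noncomputable def pt (a : ℕ) : E63 := if a < 320 then y a else xx

lemma dist_sq (u v : E63) : dist u v ^ 2 = ⟪u, u⟫ + ⟪v, v⟫ - 2 * ⟪u, v⟫ := by
  rw [dist_eq_norm, norm_sub_sq_real, real_inner_self_eq_norm_sq, real_inner_self_eq_norm_sq]
  ring

lemma inner_y_self (a : ℕ) (ha : a < 320) : ⟪y a, y a⟫ = 15 := by
  rw [inner_y_y a a ha, dot_self a ha]
  norm_num

lemma dist_pair_sq (a b : ℕ) (hab : a < b) (hb : b < 321) :
    dist (pt a) (pt b) ^ 2 = 32 - (if adj a b then (if b < 320 then 8 else 8 * tt) else 0) := by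
  have ha : a < 320 := by omega
  by_cases hb' : b < 320
  · have hpa : pt a = y a := by simp [pt, ha]
    have hpb : pt b = y b := by simp [pt, hb']
    rw [hpa, hpb, dist_sq, inner_y_self a ha, inner_y_self b hb', real_inner_comm,
      inner_y_y a b ha, dot_pair a b hab hb']
    by_cases hadj : adj a b = true
    · simp [hadj, hb']; norm_num
    · simp [hadj]; norm_num
  · have hb2 : b = 320 := by omega
    subst hb2
    have hpa : pt a = y a := by simp [pt, ha]
    have hpb : pt 320 = xx := by simp [pt]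
    have h1 : ⟪xx, xx⟫ = 13 * tt ^ 2 := by
      simp only [xx]
      rw [real_inner_smul_left, real_inner_smul_right, inner_pp_pp]
      ring
    have h2 : ⟪y a, xx⟫ = tt * ((if adj a 320 then 3 else -1 : ℤ) : ℝ) := by
      simp only [xx]
      rw [real_inner_smul_right, real_inner_comm, inner_pp_y a ha]
    rw [hpa, hpb, dist_sq, inner_y_self a ha, h1, h2]
    have ht := tt_eq
    by_cases hadj : adj a 320 = true
    · simp [hadj]; nlinarith
    · simp [hadj]; nlinarith

lemma sqrt32_pos : 0 < Real.sqrt 32 := Real.sqrt_pos.mpr (by norm_num)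

lemma dist_eq_of_sq (u v : E63) (h : dist u v ^ 2 = 32) : dist u v = Real.sqrt 32 := by
  rw [← h, Real.sqrt_sq dist_nonneg]

lemma dist_le_of_sq (u v : E63) (h : dist u v ^ 2 ≤ 32) : dist u v ≤ Real.sqrt 32 :=
  Real.le_sqrt_of_sq_le h

lemma dist_far (a b : ℕ) (hab : a < b) (hb : b < 321) (hadj : adj a b = false) :
    dist (pt a) (pt b) = Real.sqrt 32 := by
  apply dist_eq_of_sq
  rw [dist_pair_sq a b hab hb]
  simp [hadj]

lemma dist_le_aux (a b : ℕ) (hab : a < b) (hb : b < 321) :
    dist (pt a) (pt b) ≤ Real.sqrt 32 := by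
  apply dist_le_of_sq
  rw [dist_pair_sq a b hab hb]
  have ht := tt_pos
  split_ifs <;> linarith

lemma dist_le_all (a b : ℕ) (ha : a < 321) (hb : b < 321) :
    dist (pt a) (pt b) ≤ Real.sqrt 32 := by
  rcases lt_trichotomy a b with h | h | h
  · exact dist_le_aux a b h hb
  · subst h
    simp [sqrt32_pos.le]
  · rw [dist_comm]
    exact dist_le_aux b a h ha

lemma far_witness : adj 0 1 = false := by decide +kernel

theorem borsuk63 : ∃ Y : Set (EuclideanSpace ℝ (Fin 63)), Y.Finite ∧ 0 < Metric.diam Y ∧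
    ¬ ∃ A : Fin 64 → Set (EuclideanSpace ℝ (Fin 63)),
      Y = ⋃ i, A i ∧ ∀ i, Metric.diam (A i) < Metric.diam Y := by
  let Y : Set E63 := Set.range (fun a : Fin 321 => pt a)
  have hfin : Y.Finite := Set.finite_range _
  have hbdd : Bornology.IsBounded Y := hfin.isBounded
  have hdiam : Metric.diam Y = Real.sqrt 32 := by
    apply le_antisymm
    · apply Metric.diam_le_of_forall_dist_le sqrt32_pos.le
      rintro _ ⟨a, rfl⟩ _ ⟨b, rfl⟩
      exact dist_le_all a b a.isLt b.isLt
    · have h := dist_far 0 1 (by norm_num) (by norm_num) far_witness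
      rw [← h]
      exact Metric.dist_le_diam_of_mem hbdd ⟨(0 : Fin 321), rfl⟩ ⟨(1 : Fin 321), rfl⟩
  refine ⟨Y, hfin, by rw [hdiam]; exact sqrt32_pos, ?_⟩
  rintro ⟨A, hU, hA⟩
  have hmem : ∀ a : Fin 321, ∃ i, pt a ∈ A i := by
    intro a
    have : pt a ∈ Y := ⟨a, rfl⟩
    rw [hU] at this
    simpa using this
  choose f hf using hmem
  obtain ⟨i, -, hi⟩ := Finset.exists_lt_card_fiber_of_mul_lt_card_of_maps_to
    (s := (Finset.univ : Finset (Fin 321))) (t := (Finset.univ : Finset (Fin 64))) (f := f) (n := 5)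
    (fun _ _ => Finset.mem_univ _) (by simp)
  obtain ⟨t, ht, htc⟩ := Finset.exists_subset_card_eq (Nat.succ_le_of_lt hi)
  have hsubA : A i ⊆ Y := by
    rw [hU]
    exact Set.subset_iUnion A i
  have hbddA : Bornology.IsBounded (A i) := hbdd.subset hsubA
  have hnear : ∀ a b : Fin 321, a ∈ t → b ∈ t → a < b → adj a b = true := by
    intro a b ha hb hab
    by_contra hadj
    have hadj' : adj a b = false := by simpa using hadj
    have hd := dist_far a b hab b.isLt hadj'
    have ha' : f a = i := (Finset.mem_filter.mp (ht ha)).2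
    have hb' : f b = i := (Finset.mem_filter.mp (ht hb)).2
    have h1 := Metric.dist_le_diam_of_mem hbddA (ha' ▸ hf a) (hb' ▸ hf b)
    have h2 := hA i
    rw [hdiam] at h2
    linarith
  let l : List ℕ := (t.sort (· ≤ ·)).map Fin.val
  have hl : l.length = 6 := by
    simp [l, Finset.length_sort, htc]
  have hc : ∀ v ∈ l, (2 ^ 321 - 1 : ℕ).testBit v = true := by
    intro v hv
    rw [Nat.testBit_two_pow_sub_one]
    simp only [l, List.mem_map] at hv
    obtain ⟨a, _, rfl⟩ := hv
    simpa using a.isLt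
  have hp : l.Pairwise (fun a b => (M a).testBit b = true) := by
    simp only [l]
    rw [List.pairwise_map]
    refine List.Pairwise.imp_of_mem ?_ (Finset.sortedLT_sort t).pairwise
    intro a b ha hb hab
    rw [Finset.mem_sort] at ha hb
    exact hnear a b ha hb hab
  exact noClq_spec pick M 6 (2 ^ 321 - 1) clique_check l hl hc hp

end Vale.Agent.Borsuk.D63
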