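import Vale.Agent.Borsuk.D63Data

namespace Vale.Agent.Borsuk.D63

theorem pairs_check : (List.range' 0 320).all checkA = true := by decide +kernel

end Vale.Agent.Borsuk.D63
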