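import Vale.Agent.Borsuk.Core

/-!
Dot products of integer vectors computed with one multiplication of packed numbers.
-/

namespace Vale.Agent.Borsuk

/-- Evaluate a digit list in base `B`, least significant digit first. -/
def enc (B : ℕ) : List ℕ → ℕ
  | [] => 0
  | a :: as => a + B * enc B as

/-- Natural number dot product of two lists. -/
def natDot : List ℕ → List ℕ → ℕ
  | a :: as, b :: bs => a * b + natDot as bs
  | _, _ => 0

lemma enc_append (B : ℕ) (u v : List ℕ) : enc B (u ++ v) = enc B u + B ^ u.length * enc B v := by
  induction u with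
  | nil => simp [enc]
  | cons a as ih =>
    simp only [List.cons_append, enc, ih, List.length_cons, pow_succ]
    ring

lemma enc_reverse_cons (B b : ℕ) (w : List ℕ) :
    enc B (b :: w).reverse = b * B ^ w.length + enc B w.reverse := by
  rw [List.reverse_cons, enc_append, List.length_reverse]
  simp only [enc]
  ring

lemma enc_reverse_bound (B W : ℕ) (hB : 2 ≤ B) (w : List ℕ) (hw : ∀ x ∈ w, x ≤ W) :
    B * enc B w.reverse ≤ 2 * W * B ^ w.length := by
  induction w with
  | nil => simp [enc]
  | cons b w ih =>
    rw [enc_reverse_cons]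
    have h1 := ih (fun x hx => hw x (List.mem_cons_of_mem _ hx))
    have h2 : b ≤ W := hw b (by simp)
    simp only [List.length_cons]
    have h3 : 2 * W * B ^ w.length ≤ W * B ^ (w.length + 1) := by
      rw [pow_succ]
      calc 2 * W * B ^ w.length = W * B ^ w.length * 2 := by ring
        _ ≤ W * B ^ w.length * B := Nat.mul_le_mul_left _ hB
        _ = W * (B ^ w.length * B) := by ring
    have h4 : B * (b * B ^ w.length) ≤ W * B ^ (w.length + 1) := by
      rw [pow_succ]
      calc B * (b * B ^ w.length) = b * (B ^ w.length * B) := by ring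
        _ ≤ W * (B ^ w.length * B) := Nat.mul_le_mul_right _ h2
    calc B * (b * B ^ w.length + enc B w.reverse)
        = B * (b * B ^ w.length) + B * enc B w.reverse := by ring
      _ ≤ W * B ^ (w.length + 1) + W * B ^ (w.length + 1) := Nat.add_le_add h4 (h1.trans h3)
      _ = 2 * W * B ^ (w.length + 1) := by ring

lemma mul_decomp (B U W : ℕ) (hB : 2 ≤ B) (m : ℕ) (u w : List ℕ)
    (hu : u.length = m + 1) (hw : w.length = m + 1)
    (hU : ∀ x ∈ u, x ≤ U) (hW : ∀ x ∈ w, x ≤ W) :
    ∃ L H, enc B u * enc B w.reverse = L + natDot u w * B ^ m + H * B ^ (m + 1) ∧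
      B * L ≤ 2 * (m + 1) * U * W * B ^ m := by
  induction m generalizing u w with
  | zero =>
    match u, w, hu, hw with
    | [a], [b], _, _ =>
      refine ⟨0, 0, ?_, by simp⟩
      simp [enc, natDot]
  | succ m ih =>
    match u, w, hu, hw with
    | a :: u', b :: w', hu, hw =>
      have hu' : u'.length = m + 1 := by simpa using hu
      have hw' : w'.length = m + 1 := by simpa using hw
      obtain ⟨L, H, h1, h2⟩ := ih u' w' hu' hw'
        (fun x hx => hU x (List.mem_cons_of_mem _ hx))
        (fun x hx => hW x (List.mem_cons_of_mem _ hx))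
      have haU : a ≤ U := hU a (by simp)
      refine ⟨a * enc B w'.reverse + B * L, enc B u' * b + H, ?_, ?_⟩
      · rw [enc_reverse_cons, hw']
        simp only [enc, natDot]
        have e : (a + B * enc B u') * (b * B ^ (m + 1) + enc B w'.reverse)
            = a * b * B ^ (m + 1) + a * enc B w'.reverse + B * enc B u' * b * B ^ (m + 1)
              + B * (enc B u' * enc B w'.reverse) := by ring
        rw [e, h1]
        simp only [pow_succ]
        ring
      · have h3 := enc_reverse_bound B W hB w'
          (fun x hx => hW x (List.mem_cons_of_mem _ hx))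
        rw [hw'] at h3
        calc B * (a * enc B w'.reverse + B * L)
            = a * (B * enc B w'.reverse) + B * (B * L) := by ring
          _ ≤ U * (2 * W * B ^ (m + 1)) + B * (2 * (m + 1) * U * W * B ^ m) :=
              Nat.add_le_add (Nat.mul_le_mul haU h3) (Nat.mul_le_mul_left _ h2)
          _ = 2 * (m + 1 + 1) * U * W * B ^ (m + 1) := by
              simp only [pow_succ]
              ring

lemma natDot_le (U W : ℕ) (u w : List ℕ) (hU : ∀ x ∈ u, x ≤ U) (hW : ∀ x ∈ w, x ≤ W) :
    natDot u w ≤ u.length * U * W := by
  induction u generalizing w with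
  | nil => simp [natDot]
  | cons a as ih =>
    cases w with
    | nil => simp [natDot]
    | cons b bs =>
      simp only [natDot, List.length_cons]
      have h1 := ih bs (fun x hx => hU x (List.mem_cons_of_mem _ hx))
        (fun x hx => hW x (List.mem_cons_of_mem _ hx))
      have h2 : a * b ≤ U * W := Nat.mul_le_mul (hU a (by simp)) (hW b (by simp))
      calc a * b + natDot as bs ≤ U * W + as.length * U * W := Nat.add_le_add h2 h1
        _ = (as.length + 1) * U * W := by ring

/-- Digit extraction gives the dot product, when all the digits are small. -/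
lemma digit_of_mul (B U W m : ℕ) (hB : 2 ≤ B) (hbig : 2 * (m + 1) * U * W < B)
    (u w : List ℕ) (hu : u.length = m + 1) (hw : w.length = m + 1)
    (hU : ∀ x ∈ u, x ≤ U) (hW : ∀ x ∈ w, x ≤ W) :
    (enc B u * enc B w.reverse / B ^ m) % B = natDot u w := by
  obtain ⟨L, H, h1, h2⟩ := mul_decomp B U W hB m u w hu hw hU hW
  have hBpos : 0 < B := by omega
  have hpow : 0 < B ^ m := pow_pos hBpos m
  have hL : L < B ^ m := by
    have : B * L < B * B ^ m := by
      calc B * L ≤ 2 * (m + 1) * U * W * B ^ m := h2
        _ < B * B ^ m := Nat.mul_lt_mul_of_pos_right hbig hpow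
    exact Nat.lt_of_mul_lt_mul_left this
  have hD : natDot u w < B := by
    have h3 := natDot_le U W u w hU hW
    rw [hu] at h3
    have h4 : (m + 1) * U * W ≤ 2 * (m + 1) * U * W := by
      calc (m + 1) * U * W ≤ 2 * ((m + 1) * U * W) := by omega
        _ = 2 * (m + 1) * U * W := by ring
    omega
  have e : enc B u * enc B w.reverse = L + (natDot u w + H * B) * B ^ m := by
    rw [h1]
    simp only [pow_succ]
    ring
  rw [e, Nat.add_mul_div_right _ _ hpow, Nat.div_eq_of_lt hL, zero_add,
    Nat.add_mul_mod_self_right, Nat.mod_eq_of_lt hD]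

lemma enc_digits (B : ℕ) (n x : ℕ) : enc B (digits B n x) = x % B ^ n := by
  induction n generalizing x with
  | zero => simp [digits, enc, Nat.mod_one]
  | succ n ih =>
    simp only [digits, enc, ih, pow_succ']
    rw [Nat.mod_mul]

lemma length_digits (B n x : ℕ) : (digits B n x).length = n := by
  induction n generalizing x with
  | zero => simp [digits]
  | succ n ih => simp [digits, ih]

/-- Signed dot product with offsets, in terms of natural number data. -/
lemma dot_offset (a b : ℕ) (u w : List ℕ) (h : u.length = w.length) :
    dot (u.map (fun t : ℕ => (t : ℤ) - (a : ℤ))) (w.map (fun t : ℕ => (t : ℤ) - (b : ℤ)))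
      = (natDot u w : ℤ) - (b : ℤ) * (u.sum : ℤ) - (a : ℤ) * (w.sum : ℤ)
        + (u.length : ℤ) * (a : ℤ) * (b : ℤ) := by
  induction u generalizing w with
  | nil =>
    have : w = [] := List.length_eq_zero_iff.mp h.symm
    subst this
    simp [dot, natDot]
  | cons x xs ih =>
    cases w with
    | nil => simp at h
    | cons y ys =>
      have h' : xs.length = ys.length := by simpa using h
      simp only [List.map_cons, dot, natDot, List.sum_cons, List.length_cons, ih ys h']
      push_cast
      ring

lemma natDot_replicate_right (u : List ℕ) (n : ℕ) (h : u.length = n) :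
    natDot u (List.replicate n 1) = u.sum := by
  induction u generalizing n with
  | nil => simp [natDot]
  | cons x xs ih =>
    subst h
    simp [natDot, List.replicate_succ, ih xs.length rfl]

lemma natDot_replicate_left (u : List ℕ) (n : ℕ) (h : u.length = n) :
    natDot (List.replicate n 1) u = u.sum := by
  induction u generalizing n with
  | nil => simp [natDot]
  | cons x xs ih =>
    subst h
    simp [natDot, List.replicate_succ, ih xs.length rfl]

lemma dot_comm (u v : List ℤ) : dot u v = dot v u := by
  induction u generalizing v with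
  | nil => cases v <;> simp [dot]
  | cons a as ih =>
    cases v with
    | nil => simp [dot]
    | cons b bs => simp [dot, ih, mul_comm]

end Vale.Agent.Borsuk

namespace Vale.Agent.Borsuk

/-- Digit `m` of the product of two packed numbers. -/
def fd (B m x y : ℕ) : ℕ := (x * y / B ^ m) % B

/-- The packed number has `n` digits and all of them are at most `U`. -/
def okRow (B n U x : ℕ) : Bool :=
  decide (x < B ^ n) && (digits B n x).all (fun t => decide (t ≤ U))

/-- Signed dot product with offsets `a`, `b`, from packed numbers. -/
def fdot (B m a b ones x y : ℕ) : ℤ :=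
  (fd B m x y : ℤ) - (b : ℤ) * (fd B m x ones : ℤ) - (a : ℤ) * (fd B m ones y : ℤ)
    + ((m + 1 : ℕ) : ℤ) * (a : ℤ) * (b : ℤ)

/-- The vector encoded by a packed number, most significant digit first. -/
def revVec (B off n y : ℕ) : List ℤ :=
  (digits B n y).reverse.map (fun t : ℕ => (t : ℤ) - (off : ℤ))

lemma okRow_spec {B n U x : ℕ} (h : okRow B n U x = true) :
    x < B ^ n ∧ ∀ t ∈ digits B n x, t ≤ U := by
  simp only [okRow, Bool.and_eq_true, decide_eq_true_eq, List.all_eq_true] at h
  exact ⟨h.1, h.2⟩

lemma fd_spec (B m U : ℕ) (hB : 2 ≤ B) (hbig : 2 * (m + 1) * U * U < B) (x y : ℕ)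
    (hx : okRow B (m + 1) U x = true) (hy : okRow B (m + 1) U y = true) :
    fd B m x y = natDot (digits B (m + 1) x) (digits B (m + 1) y).reverse := by
  obtain ⟨hx1, hx2⟩ := okRow_spec hx
  obtain ⟨hy1, hy2⟩ := okRow_spec hy
  have h := digit_of_mul B U U m hB hbig (digits B (m + 1) x) (digits B (m + 1) y).reverse
    (length_digits _ _ _) (by simp [length_digits]) hx2 (by simpa using hy2)
  rw [List.reverse_reverse, enc_digits, enc_digits, Nat.mod_eq_of_lt hx1,
    Nat.mod_eq_of_lt hy1] at h
  exact h

lemma fdot_spec (B m U a b ones : ℕ) (hB : 2 ≤ B) (hbig : 2 * (m + 1) * U * U < B)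
    (hones : digits B (m + 1) ones = List.replicate (m + 1) 1)
    (hones' : okRow B (m + 1) U ones = true) (x y : ℕ)
    (hx : okRow B (m + 1) U x = true) (hy : okRow B (m + 1) U y = true) :
    dot (row B a (m + 1) x) (revVec B b (m + 1) y) = fdot B m a b ones x y := by
  have h1 := fd_spec B m U hB hbig x y hx hy
  have h2 := fd_spec B m U hB hbig x ones hx hones'
  have h3 := fd_spec B m U hB hbig ones y hones' hy
  rw [hones, List.reverse_replicate, natDot_replicate_right _ _ (length_digits _ _ _)] at h2
  rw [hones, natDot_replicate_left _ _ (by simp [length_digits])] at h3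
  simp only [fdot, row, revVec]
  rw [dot_offset a b _ _ (by simp [length_digits]), h1, h2, h3]
  simp [length_digits]

/-- Compare the products of matrix rows with a vector against a packed result. -/
def mulCheck (B : ℕ) (f : ℕ → ℤ) (off : ℕ) : List ℕ → ℕ → Bool
  | [], _ => true
  | e :: es, x => (f e == ((x % B : ℕ) : ℤ) - (off : ℤ)) && mulCheck B f off es (x / B)

lemma mulCheck_spec (B : ℕ) (f : ℕ → ℤ) (off : ℕ) (L : List ℕ) (x : ℕ)
    (h : mulCheck B f off L x = true) : L.map f = row B off L.length x := by
  induction L generalizing x with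
  | nil => simp [row, digits]
  | cons e es ih =>
    simp only [mulCheck, Bool.and_eq_true, beq_iff_eq] at h
    have := ih (x / B) h.2
    simp only [row, digits, List.map_cons, List.length_cons] at this ⊢
    rw [h.1, this]

/-- Compare a row of values against expected Gram values. -/
def rowCheckF (adj : ℕ → ℕ → Bool) (f : ℕ → ℤ) (a : ℕ) : ℕ → List ℕ → Bool
  | _, [] => true
  | b, r :: rest =>
    (f r == (if adj a b then 3 else -1)) && rowCheckF adj f a (b + 1) rest

lemma rowCheckF_spec (adj : ℕ → ℕ → Bool) (f : ℕ → ℤ) (a b : ℕ) (L : List ℕ)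
    (h : rowCheckF adj f a b L = true) (i : ℕ) (hi : i < L.length) :
    f (L.getD i 0) = (if adj a (b + i) then 3 else -1) := by
  induction L generalizing b i with
  | nil => simp at hi
  | cons c rest ih =>
    simp only [rowCheckF, Bool.and_eq_true, beq_iff_eq] at h
    cases i with
    | zero => simpa using h.1
    | succ i =>
      have := ih (b + 1) h.2 i (by simpa using hi)
      simp only [List.getD_cons_succ]
      rw [this]
      have e : b + 1 + i = b + (i + 1) := by omega
      rw [e]

end Vale.Agent.Borsuk
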